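import Mathlib

/-!
P011 (helper415), general odd degree, (P3): reduction of the degree.
-/

open Polynomial

namespace Vale.Agent.P011.H415

noncomputable section

variable {K : Type*} [Field K]

/-- the monic polynomial with the lower coefficients `c` -/
def Pc {m : ℕ} (c : Fin m → K) : K[X] := X ^ m + ∑ i, C (c i) * X ^ (i : ℕ)

/-- the conjugate coefficients -/
def sc [StarRing K] {m : ℕ} (c : Fin m → K) : Fin m → K := fun i => star (c i)

lemma Pc_low {m : ℕ} (c : Fin m → K) : (∑ i, C (c i) * X ^ (i : ℕ) : K[X]).degree < m := by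
  rw [Finset.sum_fin_eq_sum_range]
  refine (degree_sum_le _ _).trans_lt ?_
  rw [Finset.sup_lt_iff (by exact WithBot.bot_lt_coe m)]
  intro i hi
  have hi' := Finset.mem_range.1 hi
  rw [dif_pos hi']
  exact (degree_C_mul_X_pow_le _ _).trans_lt (by exact_mod_cast hi')

lemma Pc_monic {m : ℕ} (c : Fin m → K) : (Pc c).Monic :=
  monic_X_pow_add (Pc_low c)

lemma Pc_natDegree {m : ℕ} (c : Fin m → K) : (Pc c).natDegree = m := by
  refine natDegree_eq_of_degree_eq_some ?_
  unfold Pc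
  rw [degree_add_eq_left_of_degree_lt (by rw [degree_X_pow]; exact Pc_low c), degree_X_pow]

lemma Pc_coeff {m : ℕ} (c : Fin m → K) (i : Fin m) : (Pc c).coeff i = c i := by
  unfold Pc
  rw [coeff_add, coeff_X_pow, if_neg (by have := i.2; omega), zero_add, finsetSum_coeff]
  rw [Finset.sum_eq_single i]
  · rw [coeff_C_mul_X_pow, if_pos rfl]
  · intro j _ hj
    rw [coeff_C_mul_X_pow, if_neg]
    intro h
    exact hj (Fin.ext h.symm)
  · intro h
    exact absurd (Finset.mem_univ i) h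

/-- a monic polynomial is the polynomial of its lower coefficients -/
lemma eq_Pc {m : ℕ} {p : K[X]} (hp : p.Monic) (hd : p.natDegree = m) :
    p = Pc fun i : Fin m => p.coeff i := by
  ext n
  rcases lt_trichotomy n m with h | h | h
  · exact (Pc_coeff (fun i : Fin m => p.coeff i) ⟨n, h⟩).symm
  · subst h
    have h1 := hp.coeff_natDegree
    have h2 := (Pc_monic fun i : Fin n => p.coeff i).coeff_natDegree
    rw [hd] at h1
    rw [Pc_natDegree] at h2
    rw [h1, h2]
  · rw [coeff_eq_zero_of_natDegree_lt (by omega),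
      coeff_eq_zero_of_natDegree_lt (by rw [Pc_natDegree]; omega)]

lemma Pc_eval {m : ℕ} (c : Fin m → K) (x : K) :
    (Pc c).eval x = x ^ m + ∑ i, c i * x ^ (i : ℕ) := by
  unfold Pc
  rw [eval_add, eval_pow, eval_X, eval_finsetSum]
  simp

section star
variable [StarRing K]

lemma star_eval {m : ℕ} (c : Fin m → K) (x : K) :
    star ((Pc c).eval x) = (Pc (sc c)).eval (star x) := by
  rw [Pc_eval, Pc_eval, star_add, star_pow, star_sum]
  simp [sc, star_mul', star_pow]

lemma sc_sc {m : ℕ} (c : Fin m → K) : sc (sc c) = c := by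
  funext i
  simp [sc]

/-- the conjugate polynomial -/
lemma map_Pc {m : ℕ} (c : Fin m → K) : (Pc c).map (starRingEnd K) = Pc (sc c) := by
  unfold Pc
  rw [Polynomial.map_add, Polynomial.map_pow, map_X, Polynomial.map_sum]
  simp [sc, starRingEnd_apply]

/-- the value at the point -/
def uu {m : ℕ} (x0 : K) (c : Fin m → K) : K := (Pc c).eval x0

/-- the value of the conjugate polynomial at the point -/
def vv {m : ℕ} (x0 : K) (c : Fin m → K) : K := (Pc (sc c)).eval x0

/-- the combination which vanishes at the point -/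
def hh {m : ℕ} (x0 : K) (c : Fin (m + 1) → K) : Fin (m + 1) → K :=
  fun i => (uu x0 c * star (c i) - vv x0 c * c i) / (uu x0 c - vv x0 c)

/-- the polynomial of degree one less -/
def red {m : ℕ} (x0 : K) (c : Fin (m + 1) → K) : Fin m → K :=
  fun j => (Pc (hh x0 c) /ₘ (X - C x0)).coeff j

variable {m : ℕ} {x0 : K}

lemma hh_eq {c : Fin (m + 1) → K} (h : uu x0 c ≠ vv x0 c) :
    C (uu x0 c - vv x0 c) * Pc (hh x0 c) = C (uu x0 c) * Pc (sc c) - C (vv x0 c) * Pc c := by
  have h1 : uu x0 c - vv x0 c ≠ 0 := sub_ne_zero.2 h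
  have h2 : ∀ i, (uu x0 c - vv x0 c) * hh x0 c i = uu x0 c * sc c i - vv x0 c * c i := by
    intro i
    unfold hh sc
    field_simp
  unfold Pc
  rw [mul_add, mul_add, mul_add, Finset.mul_sum, Finset.mul_sum, Finset.mul_sum]
  have h3 : ∑ i, C (uu x0 c - vv x0 c) * (C (hh x0 c i) * X ^ (i : ℕ)) =
      ∑ i, C (uu x0 c) * (C (sc c i) * X ^ (i : ℕ)) -
        ∑ i, C (vv x0 c) * (C (c i) * X ^ (i : ℕ)) := by
    rw [← Finset.sum_sub_distrib]
    refine Finset.sum_congr rfl fun i _ => ?_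
    rw [← mul_assoc, ← C_mul, h2 i, C_sub, C_mul, C_mul]
    ring
  rw [h3, C_sub]
  ring

lemma hh_root {c : Fin (m + 1) → K} (h : uu x0 c ≠ vv x0 c) : (Pc (hh x0 c)).IsRoot x0 := by
  have h1 : uu x0 c - vv x0 c ≠ 0 := sub_ne_zero.2 h
  have h2 := congrArg (fun p : K[X] => p.eval x0) (hh_eq h)
  simp only [eval_mul, eval_C, eval_sub] at h2
  have h3 : (uu x0 c - vv x0 c) * (Pc (hh x0 c)).eval x0 = 0 := by
    rw [h2]
    unfold uu vv
    ring
  exact (mul_eq_zero.1 h3).resolve_left h1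

omit [StarRing K] in
lemma quo_monic (h : Fin (m + 1) → K) : (Pc h /ₘ (X - C x0)).Monic := by
  have h1 := leadingCoeff_divByMonic_X_sub_C (Pc h) (by
    rw [degree_eq_natDegree (Pc_monic h).ne_zero, Pc_natDegree]
    exact_mod_cast Nat.succ_ne_zero m) x0
  rw [Monic, h1]
  exact Pc_monic h

omit [StarRing K] in
lemma quo_deg (h : Fin (m + 1) → K) : (Pc h /ₘ (X - C x0)).natDegree = m := by
  rw [natDegree_divByMonic _ (monic_X_sub_C x0), Pc_natDegree, natDegree_X_sub_C]
  rfl

lemma red_eq' (c : Fin (m + 1) → K) : Pc (hh x0 c) /ₘ (X - C x0) = Pc (red x0 c) :=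
  eq_Pc (quo_monic _) (quo_deg _)

/-- **the reduction** -/
theorem red_eq {c : Fin (m + 1) → K} (h : uu x0 c ≠ vv x0 c) :
    C (uu x0 c) * Pc (sc c) - C (vv x0 c) * Pc c =
      C (uu x0 c - vv x0 c) * (X - C x0) * Pc (red x0 c) := by
  rw [← hh_eq h, ← red_eq', mul_assoc, mul_divByMonic_eq_iff_isRoot.2 (hh_root h)]

/-- the reduction of the conjugate -/
theorem red_eq_star {c : Fin (m + 1) → K} (h : uu x0 c ≠ vv x0 c) :
    C (star (uu x0 c)) * Pc c - C (star (vv x0 c)) * Pc (sc c) =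
      C (star (uu x0 c) - star (vv x0 c)) * (X - C (star x0)) * Pc (sc (red x0 c)) := by
  have h1 := congrArg (fun p : K[X] => p.map (starRingEnd K)) (red_eq h)
  simp only [Polynomial.map_sub, Polynomial.map_mul, map_C, map_X, map_Pc, sc_sc] at h1
  simpa [starRingEnd_apply] using h1

omit [StarRing K] in
lemma cop_lin {f g : K[X]} {u v u' v' : K} (hd : u * u' - v * v' ≠ 0) (h : IsCoprime f g) :
    IsCoprime (C u * g - C v * f) (C u' * f - C v' * g) := by
  obtain ⟨A, B, hAB⟩ := h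
  refine ⟨C (u * u' - v * v')⁻¹ * (C v' * A + C u' * B),
    C (u * u' - v * v')⁻¹ * (C u * A + C v * B), ?_⟩
  have h1 : C (u * u' - v * v')⁻¹ * (C (u * u' - v * v')) = (1 : K[X]) := by
    rw [← C_mul, inv_mul_cancel₀ hd, C_1]
  calc C (u * u' - v * v')⁻¹ * (C v' * A + C u' * B) * (C u * g - C v * f) +
        C (u * u' - v * v')⁻¹ * (C u * A + C v * B) * (C u' * f - C v' * g)
      = C (u * u' - v * v')⁻¹ * (C u * C u' - C v * C v') * (A * f + B * g) := by ring
    _ = 1 := by rw [hAB, ← C_mul, ← C_mul, ← C_sub, h1, one_mul]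

omit [StarRing K] in
lemma cop_one {f g : K[X]} {u v : K} (hu : u ≠ 0) (h : IsCoprime f g) :
    IsCoprime (C u * g - C v * f) f := by
  obtain ⟨A, B, hAB⟩ := h
  refine ⟨C u⁻¹ * B, A + C u⁻¹ * C v * B, ?_⟩
  have h1 : C u⁻¹ * C u = (1 : K[X]) := by rw [← C_mul, inv_mul_cancel₀ hu, C_1]
  calc C u⁻¹ * B * (C u * g - C v * f) + (A + C u⁻¹ * C v * B) * f
      = (C u⁻¹ * C u) * (B * g) + A * f := by ring
    _ = 1 := by rw [h1, one_mul, add_comm, hAB]

/-- **the reduced polynomial is coprime to its conjugate** -/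
theorem red_cop {c : Fin (m + 1) → K} (h : uu x0 c ≠ vv x0 c)
    (hd : uu x0 c * star (uu x0 c) ≠ vv x0 c * star (vv x0 c))
    (hc : IsCoprime (Pc c) (Pc (sc c))) : IsCoprime (Pc (red x0 c)) (Pc (sc (red x0 c))) := by
  have h1 := cop_lin (sub_ne_zero.2 hd) hc
  rw [red_eq h, red_eq_star h] at h1
  exact h1.of_mul_left_right.of_mul_right_right

/-- the reduced polynomial is coprime to the polynomial -/
theorem red_cop_left {c : Fin (m + 1) → K} (h : uu x0 c ≠ vv x0 c) (hu : uu x0 c ≠ 0)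
    (hc : IsCoprime (Pc c) (Pc (sc c))) : IsCoprime (Pc (red x0 c)) (Pc c) := by
  have h1 := cop_one (v := vv x0 c) hu hc
  rw [red_eq h] at h1
  exact h1.of_mul_left_right

/-- the reduced polynomial is coprime to the conjugate polynomial -/
theorem red_cop_right {c : Fin (m + 1) → K} (h : uu x0 c ≠ vv x0 c) (hv : vv x0 c ≠ 0)
    (hc : IsCoprime (Pc c) (Pc (sc c))) : IsCoprime (Pc (red x0 c)) (Pc (sc c)) := by
  have h1 := cop_one (v := uu x0 c) hv hc.symm
  have h2 : C (vv x0 c) * Pc c - C (uu x0 c) * Pc (sc c) =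
      -(C (uu x0 c - vv x0 c) * (X - C x0)) * Pc (red x0 c) := by
    rw [neg_mul, ← red_eq h]
    ring
  rw [h2] at h1
  exact h1.of_mul_left_right

/-! ### continuity -/

section top
variable [TopologicalSpace K]

omit [StarRing K] in
lemma cont_coeff {α : Type*} [TopologicalSpace α] {n : ℕ} {f : α → Fin n → K} {a : α}
    (hf : ContinuousAt f a) (i : ℕ) : ContinuousAt (fun t => (Pc (f t)).coeff i) a := by
  rcases lt_trichotomy i n with h | h | h
  · have h1 : (fun t => (Pc (f t)).coeff i) = fun t => f t ⟨i, h⟩ :=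
      funext fun t => Pc_coeff (f t) ⟨i, h⟩
    rw [h1]
    exact (continuousAt_pi.1 hf) _
  · have h1 : (fun t => (Pc (f t)).coeff i) = fun _ => (1 : K) := by
      funext t
      have := (Pc_monic (f t)).coeff_natDegree
      rw [Pc_natDegree] at this
      rw [h]
      exact this
    rw [h1]
    exact continuousAt_const
  · have h1 : (fun t => (Pc (f t)).coeff i) = fun _ => (0 : K) := by
      funext t
      exact coeff_eq_zero_of_natDegree_lt (by rw [Pc_natDegree]; exact h)
    rw [h1]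
    exact continuousAt_const

variable [IsTopologicalRing K]

omit [StarRing K] in
lemma cont_uu (m : ℕ) (x0 : K) : Continuous (uu (m := m) x0) := by
  have h1 : uu (m := m) x0 = fun c => x0 ^ m + ∑ i : Fin m, c i * x0 ^ (i : ℕ) :=
    funext fun c => Pc_eval c x0
  rw [h1]
  exact continuous_const.add (continuous_finsetSum _ fun i _ =>
    (continuous_apply i).mul continuous_const)

variable [ContinuousStar K]

omit [IsTopologicalRing K] in
lemma cont_sc (m : ℕ) : Continuous (sc (K := K) (m := m)) := by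
  unfold sc
  fun_prop

lemma cont_vv (m : ℕ) (x0 : K) : Continuous (vv (m := m) x0) := (cont_uu m x0).comp (cont_sc m)

lemma cont_hh [ContinuousInv₀ K] {c0 : Fin (m + 1) → K} (h : uu x0 c0 ≠ vv x0 c0) :
    ContinuousAt (hh x0) c0 := by
  refine continuousAt_pi.2 fun i => ?_
  have hu := (cont_uu (m + 1) x0).continuousAt (x := c0)
  have hv := (cont_vv (m + 1) x0).continuousAt (x := c0)
  have hi : ContinuousAt (fun c : Fin (m + 1) → K => c i) c0 := (continuous_apply i).continuousAt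
  have hs : ContinuousAt (fun c : Fin (m + 1) → K => star (c i)) c0 :=
    continuous_star.continuousAt.comp hi
  exact ((hu.mul hs).sub (hv.mul hi)).div (hu.sub hv) (sub_ne_zero.2 h)

/-- **the reduction is continuous** -/
theorem cont_red [ContinuousInv₀ K] {c0 : Fin (m + 1) → K} (h : uu x0 c0 ≠ vv x0 c0) :
    ContinuousAt (red x0) c0 := by
  refine continuousAt_pi.2 fun j => ?_
  have h1 : (fun c : Fin (m + 1) → K => red x0 c j) = fun c =>
      ∑ i ∈ Finset.Icc ((j : ℕ) + 1) (m + 1), x0 ^ (i - ((j : ℕ) + 1)) *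
        (Pc (hh x0 c)).coeff i := by
    funext c
    unfold red
    rw [coeff_divByMonic_X_sub_C, Pc_natDegree]
  show ContinuousAt (fun c : Fin (m + 1) → K => red x0 c j) c0
  rw [h1]
  refine tendsto_finsetSum _ fun i _ => ?_
  exact (continuousAt_const.mul (cont_coeff (cont_hh h) i))

end top

/-! ### the point -/

/-- a point where everything is different -/
theorem ex_x0 (hst : ∃ x : K, star x ≠ x) (hinf : {x : K | star x = x}.Infinite)
    (c0 : Fin (m + 1) → K) (hc : IsCoprime (Pc c0) (Pc (sc c0))) : ∃ x0 : K, star x0 ≠ x0 ∧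
      uu x0 c0 ≠ 0 ∧ vv x0 c0 ≠ 0 ∧ uu x0 c0 ≠ vv x0 c0 ∧
      uu x0 c0 * star (uu x0 c0) ≠ vv x0 c0 * star (vv x0 c0) := by
  obtain ⟨θ, hθ⟩ := hst
  obtain ⟨f, hf⟩ : ∃ f, f = Pc c0 := ⟨_, rfl⟩
  obtain ⟨g, hg⟩ : ∃ g, g = Pc (sc c0) := ⟨_, rfl⟩
  rw [← hf, ← hg] at hc
  have hfm : f.Monic := by rw [hf]; exact Pc_monic c0
  have hgm : g.Monic := by rw [hg]; exact Pc_monic _
  have hfd : f.natDegree = m + 1 := by rw [hf]; exact Pc_natDegree c0
  obtain ⟨τ, hτ⟩ : ∃ τ, τ = θ - star θ := ⟨_, rfl⟩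
  have hτ0 : τ ≠ 0 := by
    rw [hτ]
    intro h
    exact hθ (sub_eq_zero.1 h).symm
  -- the slope
  obtain ⟨b, hb, hbτ⟩ : ∃ b : K, star b = b ∧ f.eval (b * τ) ≠ f.eval 0 := by
    by_contra hcon
    push Not at hcon
    have h1 : f.comp (C τ * X) - C (f.eval 0) = 0 := by
      refine eq_zero_of_infinite_isRoot _ (hinf.mono fun x hx => ?_)
      have h2 := hcon x hx
      show (f.comp (C τ * X) - C (f.eval 0)).eval x = 0
      rw [eval_sub, eval_comp, eval_mul, eval_C, eval_X, eval_C, mul_comm τ x, h2, sub_self]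
    have h2 := congrArg natDegree (sub_eq_zero.1 h1)
    rw [natDegree_comp, natDegree_C, hfd, natDegree_C_mul_X τ hτ0] at h2
    omega
  have hb0 : b ≠ 0 := by
    rintro rfl
    rw [zero_mul] at hbτ
    exact hbτ rfl
  obtain ⟨f1, hf1⟩ : ∃ f1, f1 = f.comp (X + C (b * θ)) := ⟨_, rfl⟩
  obtain ⟨f2, hf2⟩ : ∃ f2, f2 = f.comp (X + C (b * star θ)) := ⟨_, rfl⟩
  obtain ⟨g1, hg1⟩ : ∃ g1, g1 = g.comp (X + C (b * θ)) := ⟨_, rfl⟩
  obtain ⟨g2, hg2⟩ : ∃ g2, g2 = g.comp (X + C (b * star θ)) := ⟨_, rfl⟩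
  have hcop : IsCoprime f1 g1 := by
    have := hc.map (compRingHom (X + C (b * θ)))
    rw [coe_compRingHom_apply, coe_compRingHom_apply] at this
    rw [hf1, hg1]
    exact this
  have hf1m : f1.Monic := by rw [hf1]; exact hfm.comp_X_add_C _
  have hf2m : f2.Monic := by rw [hf2]; exact hfm.comp_X_add_C _
  have hg1m : g1.Monic := by rw [hg1]; exact hgm.comp_X_add_C _
  have hf1d : f1.natDegree = m + 1 := by
    rw [hf1, natDegree_comp, natDegree_X_add_C, mul_one, hfd]
  have hf2d : f2.natDegree = m + 1 := by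
    rw [hf2, natDegree_comp, natDegree_X_add_C, mul_one, hfd]
  have h12 : f1 * g2 - g1 * f2 ≠ 0 := by
    intro h0
    have h1 : f1 ∣ g1 * f2 := ⟨g2, (sub_eq_zero.1 h0).symm⟩
    have h2 : f1 ∣ f2 := hcop.dvd_of_dvd_mul_left h1
    have h3 : f2 = f1 := eq_of_monic_of_dvd_of_natDegree_le hf1m hf2m h2 (by omega)
    have h4 := congrArg (fun p : K[X] => p.eval (-(b * star θ))) h3
    simp only [hf1, hf2, eval_comp, eval_add, eval_X, eval_C] at h4
    rw [neg_add_cancel, show -(b * star θ) + b * θ = b * τ by rw [hτ]; ring] at h4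
    exact hbτ h4.symm
  have hfg : f1 - g1 ≠ 0 := by
    intro h0
    rw [← sub_eq_zero.1 h0] at hcop
    have h1 := natDegree_eq_zero_of_isUnit (isCoprime_self.1 hcop)
    omega
  have hP : f1 * g1 * (f1 - g1) * (f1 * g2 - g1 * f2) ≠ 0 :=
    mul_ne_zero (mul_ne_zero (mul_ne_zero hf1m.ne_zero hg1m.ne_zero) hfg) h12
  obtain ⟨a, ha, haP⟩ : ∃ a : K, star a = a ∧
      (f1 * g1 * (f1 - g1) * (f1 * g2 - g1 * f2)).eval a ≠ 0 := by
    by_contra hcon
    push Not at hcon
    exact hP (eq_zero_of_infinite_isRoot _ (hinf.mono fun x hx => hcon x hx))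
  obtain ⟨x0, hx0⟩ : ∃ x0, x0 = a + b * θ := ⟨_, rfl⟩
  have hx0s : star x0 = a + b * star θ := by
    rw [hx0, star_add, star_mul', ha, hb]
  simp only [eval_mul, eval_sub, hf1, hf2, hg1, hg2, eval_comp, eval_add, eval_X, eval_C] at haP
  rw [← hx0, ← hx0s] at haP
  have e1 : f.eval x0 = uu x0 c0 := by rw [hf]; rfl
  have e2 : g.eval x0 = vv x0 c0 := by rw [hg]; rfl
  have e3 : g.eval (star x0) = star (uu x0 c0) := by
    rw [hg]
    exact (star_eval c0 x0).symm
  have e4 : f.eval (star x0) = star (vv x0 c0) := by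
    have h1 := star_eval (sc c0) x0
    rw [sc_sc] at h1
    rw [hf]
    exact h1.symm
  rw [e1, e2, e3, e4] at haP
  have n1 := left_ne_zero_of_mul haP
  have n2 := right_ne_zero_of_mul haP
  have n3 := left_ne_zero_of_mul n1
  have n4 := right_ne_zero_of_mul n1
  refine ⟨x0, ?_, left_ne_zero_of_mul n3, right_ne_zero_of_mul n3, sub_ne_zero.1 n4,
    sub_ne_zero.1 n2⟩
  rw [hx0s, hx0]
  intro h
  have h1 : b * (star θ - θ) = 0 := by linear_combination h
  rcases mul_eq_zero.1 h1 with h2 | h2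
  · exact hb0 h2
  · exact hθ (sub_eq_zero.1 h2)

end star

end

end Vale.Agent.P011.H415
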