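import Vale.Agent.P011.H605.Odd.Dd
import Mathlib.Data.Matrix.Composition

/-!
P011 (helper415), general odd degree, germ form (G4), part 1: pivot sums of block diagonal matrices.
-/

open Matrix

namespace Vale.Agent.P011.H415.GW

open Vale.Agent.P011.H605.Odd (ps sch ps_zero ps_succ)

noncomputable section

variable {D E : Type*} [DivisionRing D] [AddCommGroup E]

/-- direct sum of two square matrices -/
def dsum {m n N : ℕ} (h : N = m + n) (X : Matrix (Fin m) (Fin m) D) (Y : Matrix (Fin n) (Fin n) D) :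
    Matrix (Fin N) (Fin N) D := fun i j =>
  if hi : (i : ℕ) < m then (if hj : (j : ℕ) < m then X ⟨i, hi⟩ ⟨j, hj⟩ else 0)
  else (if hj : (j : ℕ) < m then 0 else Y ⟨i - m, by omega⟩ ⟨j - m, by omega⟩)

/-- the pivot sum of a direct sum -/
theorem ps_dsum (Ψ : D → E) {n : ℕ} (Y : Matrix (Fin n) (Fin n) D) : ∀ (m N : ℕ) (h : N = m + n)
    (X : Matrix (Fin m) (Fin m) D), ps Ψ N (dsum h X Y) = ps Ψ m X + ps Ψ n Y
  | 0, N, h, X => by
    obtain rfl : N = n := by omega
    rw [ps_zero, zero_add]
    congr 1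
  | m + 1, N, h, X => by
    obtain rfl : N = (m + n) + 1 := by omega
    have h0 : dsum h X Y 0 0 = X 0 0 := by
      unfold dsum
      rw [dif_pos (by simp), dif_pos (by simp)]
      rfl
    have hs : sch (dsum h X Y) = dsum rfl (sch X) Y := by
      ext i j
      have e00 : ∀ i : Fin (m + n), dsum h X Y i.succ 0 =
          if hi : (i : ℕ) < m then X (⟨i, hi⟩ : Fin m).succ 0 else 0 := by
        intro i
        unfold dsum
        by_cases hi : (i : ℕ) < m
        · rw [dif_pos (by simp [hi]), dif_pos (by simp), dif_pos hi]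
          rfl
        · rw [dif_neg (by simp; omega), dif_pos (by simp), dif_neg hi]
      have e01 : ∀ j : Fin (m + n), dsum h X Y 0 j.succ =
          if hj : (j : ℕ) < m then X 0 (⟨j, hj⟩ : Fin m).succ else 0 := by
        intro j
        unfold dsum
        by_cases hj : (j : ℕ) < m
        · rw [dif_pos (by simp), dif_pos (by simp [hj]), dif_pos hj]
          rfl
        · rw [dif_pos (by simp), dif_neg (by simp; omega), dif_neg hj]
      have e11 : dsum h X Y i.succ j.succ =
          if hi : (i : ℕ) < m then (if hj : (j : ℕ) < m then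
            X (⟨i, hi⟩ : Fin m).succ (⟨j, hj⟩ : Fin m).succ else 0)
          else (if hj : (j : ℕ) < m then 0 else Y ⟨i - m, by omega⟩ ⟨j - m, by omega⟩) := by
        unfold dsum
        by_cases hi : (i : ℕ) < m
        · rw [dif_pos (by simp [hi]), dif_pos hi]
          by_cases hj : (j : ℕ) < m
          · rw [dif_pos (by simp [hj]), dif_pos hj]
            rfl
          · rw [dif_neg (by simp; omega), dif_neg hj]
        · rw [dif_neg (by simp; omega), dif_neg hi]
          by_cases hj : (j : ℕ) < m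
          · rw [dif_pos (by simp [hj]), dif_pos hj]
          · rw [dif_neg (by simp; omega), dif_neg hj]
            congr 1 <;> exact Fin.ext (by simp)
      unfold sch
      rw [e00, e01, e11, h0]
      unfold dsum
      by_cases hi : (i : ℕ) < m
      · rw [dif_pos hi, dif_pos hi, dif_pos hi]
        by_cases hj : (j : ℕ) < m
        · rw [dif_pos hj, dif_pos hj, dif_pos hj]
        · rw [dif_neg hj, dif_neg hj, dif_neg hj, mul_zero, sub_zero]
      · rw [dif_neg hi, dif_neg hi, dif_neg hi, zero_mul, zero_mul, sub_zero]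
    rw [ps_succ, ps_succ, h0, hs, ps_dsum Ψ Y m (m + n) rfl (sch X), add_assoc]

/-- the pivot sum of `r` equal diagonal blocks -/
theorem ps_blocks (Ψ : D → E) {m : ℕ} (hm : 0 < m) (X : Matrix (Fin m) (Fin m) D) :
    ∀ (r N : ℕ) (_ : N = r * m) (Z : Matrix (Fin N) (Fin N) D)
      (_ : ∀ i j : Fin N, Z i j = if (i : ℕ) / m = (j : ℕ) / m then
        X ⟨i % m, Nat.mod_lt _ hm⟩ ⟨j % m, Nat.mod_lt _ hm⟩ else 0),
      ps Ψ N Z = r • ps Ψ m X
  | 0, N, h, Z, _ => by
    obtain rfl : N = 0 := by rw [h, Nat.zero_mul]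
    rw [ps_zero, zero_smul]
  | r + 1, N, h, Z, hZ => by
    have hN : N = m + r * m := by rw [h, Nat.succ_mul, Nat.add_comm]
    obtain ⟨Y, hY⟩ : ∃ Y : Matrix (Fin (r * m)) (Fin (r * m)) D, Y = fun (i j : Fin (r * m)) =>
      Z ⟨(i : ℕ) + m, by have := i.2; omega⟩ ⟨(j : ℕ) + m, by have := j.2; omega⟩ := ⟨_, rfl⟩
    have hYr := ps_blocks Ψ hm X r (r * m) rfl Y (by
      intro i j
      rw [hY]
      simp only
      rw [hZ]
      simp only [Nat.add_div_right _ hm, Nat.add_mod_right, Nat.succ.injEq,
        Nat.succ_eq_add_one, Nat.add_right_cancel_iff])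
    have hZd : Z = dsum hN X Y := by
      ext i j
      rw [hZ]
      unfold dsum
      by_cases hi : (i : ℕ) < m
      · rw [dif_pos hi, Nat.div_eq_of_lt hi]
        by_cases hj : (j : ℕ) < m
        · rw [dif_pos hj, Nat.div_eq_of_lt hj, if_pos rfl]
          congr 1 <;> exact Fin.ext (Nat.mod_eq_of_lt (by assumption))
        · rw [dif_neg hj, if_neg]
          intro h0
          have : 1 ≤ (j : ℕ) / m := (Nat.one_le_div_iff hm).2 (by omega)
          omega
      · rw [dif_neg hi]
        by_cases hj : (j : ℕ) < m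
        · rw [dif_pos hj, Nat.div_eq_of_lt hj, if_neg]
          intro h0
          have : 1 ≤ (i : ℕ) / m := (Nat.one_le_div_iff hm).2 (by omega)
          omega
        · rw [dif_neg hj, hY]
          simp only
          rw [hZ]
          have hi' : (i : ℕ) - m + m = i := by omega
          have hj' : (j : ℕ) - m + m = j := by omega
          simp only [hi', hj']
    rw [hZd, ps_dsum Ψ Y m N hN X, hYr, succ_nsmul, add_comm]

section alg

variable (k : Type*) [CommSemiring k] [Algebra k D]

/-- flattening of matrices of matrices -/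
def flat (r m : ℕ) : Matrix (Fin r) (Fin r) (Matrix (Fin m) (Fin m) D) ≃ₐ[k]
    Matrix (Fin (r * m)) (Fin (r * m)) D :=
  (Matrix.compAlgEquiv (Fin r) (Fin m) D k).trans (Matrix.reindexAlgEquiv k D finProdFinEquiv)

/-- `r` equal diagonal blocks -/
def bdg (r : ℕ) {m : ℕ} (X : Matrix (Fin m) (Fin m) D) : Matrix (Fin (r * m)) (Fin (r * m)) D :=
  flat k r m (diagonal fun _ => X)

theorem ps_bdg (Ψ : D → E) (r : ℕ) {m : ℕ} (X : Matrix (Fin m) (Fin m) D) :
    ps Ψ (r * m) (bdg k r X) = r • ps Ψ m X := by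
  rcases Nat.eq_zero_or_pos m with hm | hm
  · subst hm
    have h0 : ∀ (N : ℕ) (_ : N = 0) (Z : Matrix (Fin N) (Fin N) D), ps Ψ N Z = 0 := by
      intro N hN Z
      subst hN
      rfl
    rw [h0 (r * 0) (Nat.mul_zero r) _, ps_zero, smul_zero]
  · refine ps_blocks Ψ hm X r (r * m) rfl _ fun i j => ?_
    change (Matrix.comp (Fin r) (Fin r) (Fin m) (Fin m) D (diagonal fun _ => X))
      (finProdFinEquiv.symm i) (finProdFinEquiv.symm j) = _
    have e1 : ∀ i : Fin (r * m), finProdFinEquiv.symm i = (i.divNat, i.modNat) := fun i => rfl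
    rw [e1, e1]
    change (diagonal (fun _ : Fin r => X) i.divNat j.divNat) i.modNat j.modNat = _
    rw [diagonal_apply]
    by_cases h : (i : ℕ) / m = (j : ℕ) / m
    · rw [if_pos h, if_pos (Fin.ext h)]
      rfl
    · rw [if_neg h, if_neg (fun h1 => h (congrArg Fin.val h1))]
      rfl

end alg

end

end Vale.Agent.P011.H415.GW
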