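import Vale.Agent.P011.H439.State
import Vale.Agent.P011.H415.Red
import Mathlib.RingTheory.Polynomial.Resultant.Basic

/-!
P011 (helper415), general odd degree, (S4): the composite multiplier is a scalar.
-/

open Matrix Polynomial Filter Topology

set_option linter.unusedSectionVars false

namespace Vale.Agent.P011.H415

noncomputable section

variable {K : Type*} [Field K]

lemma pc_def {m : ℕ} (c : Fin m → K) : H439.Pc c = Pc c := rfl

lemma pc_lin (x0 : K) : H439.Pc (fun _ : Fin 1 => -x0) = X - C x0 := by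
  unfold H439.Pc
  simp [sub_eq_add_neg]

variable [StarRing K]

lemma sc_def {m : ℕ} (c : Fin m → K) : H439.sc c = sc c := rfl

lemma sc_lin (x0 : K) : H439.sc (fun _ : Fin 1 => -x0) = fun _ => -(star x0) := by
  funext i
  simp [H439.sc]

/-- the scalar -/
def kap {m : ℕ} (x0 : K) (c : Fin m → K) : K :=
  -(star (uu x0 c) / vv x0 c) * (uu x0 c - vv x0 c) / star (uu x0 c - vv x0 c)

variable {m : ℕ} {x0 : K}

lemma kap_mul_star {c : Fin m → K} (h : uu x0 c ≠ vv x0 c) :
    kap x0 c * star (kap x0 c) =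
      uu x0 c * star (uu x0 c) / (vv x0 c * star (vv x0 c)) := by
  have h1 : uu x0 c - vv x0 c ≠ 0 := sub_ne_zero.2 h
  have h2 : star (uu x0 c - vv x0 c) ≠ 0 := by
    rw [Ne, star_eq_zero]
    exact h1
  unfold kap
  simp only [star_div₀, star_mul', star_neg, star_star]
  field_simp

lemma kap_ne_one {c : Fin m → K} (h : uu x0 c ≠ vv x0 c) (hv : vv x0 c ≠ 0)
    (hd : uu x0 c * star (uu x0 c) ≠ vv x0 c * star (vv x0 c)) :
    kap x0 c * star (kap x0 c) ≠ 1 := by
  rw [kap_mul_star h]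
  intro h1
  rw [div_eq_one_iff_eq] at h1
  · exact hd h1
  · refine mul_ne_zero hv ?_
    rw [Ne, star_eq_zero]
    exact hv

lemma kap_ne_zero {c : Fin m → K} (h : uu x0 c ≠ vv x0 c) (hu : uu x0 c ≠ 0)
    (hv : vv x0 c ≠ 0) : kap x0 c ≠ 0 := by
  have h1 : uu x0 c - vv x0 c ≠ 0 := sub_ne_zero.2 h
  unfold kap
  refine div_ne_zero (mul_ne_zero (neg_ne_zero.2 (div_ne_zero ?_ hv)) h1) ?_
  · rw [Ne, star_eq_zero]
    exact hu
  · rw [Ne, star_eq_zero]
    exact h1

section alg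

variable {A : Type*} [Ring A] [Algebra K A]

omit [StarRing K] in
lemma comm_aeval (ρ : A) (p q : K[X]) : aeval ρ p * aeval ρ q = aeval ρ q * aeval ρ p := by
  rw [← map_mul, mul_comm, map_mul]

omit [StarRing K] in
lemma comm_inv (ρ : A) (p q : K[X]) :
    aeval ρ p * Ring.inverse (aeval ρ q) = Ring.inverse (aeval ρ q) * aeval ρ p := by
  by_cases h : IsUnit (aeval ρ q)
  · have h1 := Ring.mul_inverse_cancel _ h
    have h2 := Ring.inverse_mul_cancel _ h
    calc aeval ρ p * Ring.inverse (aeval ρ q)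
        = Ring.inverse (aeval ρ q) * (aeval ρ q * aeval ρ p) * Ring.inverse (aeval ρ q) := by
          rw [← mul_assoc, h2, one_mul]
      _ = Ring.inverse (aeval ρ q) * aeval ρ p := by
          rw [comm_aeval ρ q p, mul_assoc, mul_assoc, h1, mul_one]
  · rw [Ring.inverse_non_unit _ h, mul_zero, zero_mul]

/-- the relation behind the scalar -/
lemma kap_rel {c : Fin (m + 1) → K} {ρ : A} (h0 : aeval ρ (H439.Pc (H439.sc c)) = 0)
    (h : uu x0 c ≠ vv x0 c) (hv : vv x0 c ≠ 0) :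
    aeval ρ (H439.Pc (H439.sc (red x0 c))) * aeval ρ (H439.Pc (H439.sc fun _ : Fin 1 => -x0)) =
      kap x0 c • (aeval ρ (H439.Pc (red x0 c)) * aeval ρ (H439.Pc fun _ : Fin 1 => -x0)) := by
  have h1 : uu x0 c - vv x0 c ≠ 0 := sub_ne_zero.2 h
  have h2 : star (uu x0 c - vv x0 c) ≠ 0 := by
    rw [Ne, star_eq_zero]
    exact h1
  have e1 := congrArg (aeval ρ) (red_eq h)
  have e2 := congrArg (aeval ρ) (red_eq_star h)
  rw [sc_lin, pc_lin, pc_lin]
  obtain ⟨L, hL⟩ : ∃ L : K[X], L = X - C x0 := ⟨_, rfl⟩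
  obtain ⟨L', hL'⟩ : ∃ L' : K[X], L' = X - C (star x0) := ⟨_, rfl⟩
  rw [← hL] at e1
  rw [← hL'] at e2
  rw [← hL, ← hL']
  rw [sc_def, pc_def] at h0
  rw [sc_def, pc_def, pc_def]
  simp only [map_sub, map_mul, aeval_C, h0, mul_zero, zero_sub, sub_zero] at e1 e2
  simp only [← Algebra.smul_def, ← map_sub, ← star_sub, smul_mul_assoc] at e1 e2
  have e3 : aeval ρ (Pc c) = -(((uu x0 c - vv x0 c) / vv x0 c) •
      (aeval ρ L * aeval ρ (Pc (red x0 c)))) := by
    have e4 := congrArg (fun t => (vv x0 c)⁻¹ • t) e1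
    simp only [smul_neg, smul_smul, inv_mul_cancel₀ hv, one_smul] at e4
    rw [← neg_eq_iff_eq_neg, e4]
    congr 1
    field_simp
  have e5 : aeval ρ L' * aeval ρ (Pc (sc (red x0 c))) =
      (star (uu x0 c) / star (uu x0 c - vv x0 c)) • aeval ρ (Pc c) := by
    have e4 := congrArg (fun t => (star (uu x0 c - vv x0 c))⁻¹ • t) e2
    simp only [smul_smul, inv_mul_cancel₀ h2, one_smul] at e4
    rw [← e4]
    congr 1
    field_simp
  rw [comm_aeval ρ (Pc (sc (red x0 c))), e5, e3, smul_neg, smul_smul, ← neg_smul,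
    comm_aeval ρ (Pc (red x0 c))]
  congr 1
  unfold kap
  field_simp

/-- **the composite multiplier is a scalar** -/
theorem kappa1 {c : Fin (m + 1) → K} {ρ : A} (h0 : aeval ρ (H439.Pc (H439.sc c)) = 0)
    (h : uu x0 c ≠ vv x0 c) (hv : vv x0 c ≠ 0) (hR : IsUnit (aeval ρ (H439.Pc (red x0 c))))
    (hL : IsUnit (aeval ρ (H439.Pc fun _ : Fin 1 => -x0))) :
    aeval ρ (H439.Pc (H439.sc (red x0 c))) * Ring.inverse (aeval ρ (H439.Pc (red x0 c))) *
      (aeval ρ (H439.Pc (H439.sc fun _ : Fin 1 => -x0)) *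
        Ring.inverse (aeval ρ (H439.Pc fun _ : Fin 1 => -x0))) = kap x0 c • (1 : A) := by
  have e := kap_rel h0 h hv
  obtain ⟨R', hR'⟩ : ∃ t, t = aeval ρ (H439.Pc (H439.sc (red x0 c))) := ⟨_, rfl⟩
  obtain ⟨L', hL'⟩ : ∃ t, t = aeval ρ (H439.Pc (H439.sc fun _ : Fin 1 => -x0)) := ⟨_, rfl⟩
  have c1 : L' * Ring.inverse (aeval ρ (H439.Pc (red x0 c))) =
      Ring.inverse (aeval ρ (H439.Pc (red x0 c))) * L' := by
    rw [hL']
    exact comm_inv _ _ _
  have c2 : aeval ρ (H439.Pc fun _ : Fin 1 => -x0) *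
      Ring.inverse (aeval ρ (H439.Pc (red x0 c))) =
      Ring.inverse (aeval ρ (H439.Pc (red x0 c))) * aeval ρ (H439.Pc fun _ : Fin 1 => -x0) :=
    comm_inv _ _ _
  rw [← hR', ← hL'] at e ⊢
  calc R' * Ring.inverse (aeval ρ (H439.Pc (red x0 c))) *
        (L' * Ring.inverse (aeval ρ (H439.Pc fun _ : Fin 1 => -x0)))
      = R' * (Ring.inverse (aeval ρ (H439.Pc (red x0 c))) * L') *
        Ring.inverse (aeval ρ (H439.Pc fun _ : Fin 1 => -x0)) := by
        simp only [mul_assoc]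
    _ = (R' * L') * Ring.inverse (aeval ρ (H439.Pc (red x0 c))) *
        Ring.inverse (aeval ρ (H439.Pc fun _ : Fin 1 => -x0)) := by
        rw [← c1]
        simp only [mul_assoc]
    _ = kap x0 c • (aeval ρ (H439.Pc (red x0 c)) *
        (aeval ρ (H439.Pc fun _ : Fin 1 => -x0) *
          Ring.inverse (aeval ρ (H439.Pc (red x0 c)))) *
        Ring.inverse (aeval ρ (H439.Pc fun _ : Fin 1 => -x0))) := by
        rw [e]
        simp only [smul_mul_assoc, mul_assoc]
    _ = kap x0 c • ((aeval ρ (H439.Pc (red x0 c)) *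
          Ring.inverse (aeval ρ (H439.Pc (red x0 c)))) *
        (aeval ρ (H439.Pc fun _ : Fin 1 => -x0) *
        Ring.inverse (aeval ρ (H439.Pc fun _ : Fin 1 => -x0)))) := by
        rw [c2]
        simp only [mul_assoc]
    _ = kap x0 c • (1 : A) := by
        rw [Ring.mul_inverse_cancel _ hR, Ring.mul_inverse_cancel _ hL, mul_one]

/-- the other order -/
theorem kappa1' {c : Fin (m + 1) → K} {ρ : A} (h0 : aeval ρ (H439.Pc (H439.sc c)) = 0)
    (h : uu x0 c ≠ vv x0 c) (hv : vv x0 c ≠ 0) (hR : IsUnit (aeval ρ (H439.Pc (red x0 c))))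
    (hL : IsUnit (aeval ρ (H439.Pc fun _ : Fin 1 => -x0))) :
    aeval ρ (H439.Pc (H439.sc fun _ : Fin 1 => -x0)) *
        Ring.inverse (aeval ρ (H439.Pc fun _ : Fin 1 => -x0)) *
      (aeval ρ (H439.Pc (H439.sc (red x0 c))) * Ring.inverse (aeval ρ (H439.Pc (red x0 c)))) =
        kap x0 c • (1 : A) := by
  rw [← kappa1 h0 h hv hR hL]
  obtain ⟨p, hp⟩ : ∃ t, t = H439.Pc (H439.sc fun _ : Fin 1 => -x0) := ⟨_, rfl⟩
  obtain ⟨q, hq⟩ : ∃ t, t = H439.Pc (fun _ : Fin 1 => -x0) := ⟨_, rfl⟩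
  obtain ⟨p', hp'⟩ : ∃ t, t = H439.Pc (H439.sc (red x0 c)) := ⟨_, rfl⟩
  obtain ⟨q', hq'⟩ : ∃ t, t = H439.Pc (red x0 c) := ⟨_, rfl⟩
  rw [← hp, ← hq, ← hp', ← hq']
  have c1 : Ring.inverse (aeval ρ q) * Ring.inverse (aeval ρ q') =
      Ring.inverse (aeval ρ q') * Ring.inverse (aeval ρ q) := by
    have h1 : aeval ρ q * aeval ρ q' = aeval ρ q' * aeval ρ q := comm_aeval _ _ _
    rw [← hq] at hL
    rw [← hq'] at hR
    obtain ⟨a, ha⟩ := hL
    obtain ⟨b, hb⟩ := hR
    rw [← ha, ← hb] at h1 ⊢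
    rw [Ring.inverse_unit, Ring.inverse_unit, ← Units.val_mul, ← Units.val_mul,
      ← _root_.mul_inv_rev, ← _root_.mul_inv_rev]
    congr 2
    exact Units.ext h1.symm
  calc aeval ρ p * Ring.inverse (aeval ρ q) * (aeval ρ p' * Ring.inverse (aeval ρ q'))
      = aeval ρ p * (aeval ρ p' * Ring.inverse (aeval ρ q)) * Ring.inverse (aeval ρ q') := by
        rw [comm_inv ρ p' q]
        simp only [mul_assoc]
    _ = (aeval ρ p * aeval ρ p') * (Ring.inverse (aeval ρ q) * Ring.inverse (aeval ρ q')) := by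
        simp only [mul_assoc]
    _ = (aeval ρ p' * aeval ρ p) * (Ring.inverse (aeval ρ q') * Ring.inverse (aeval ρ q)) := by
        rw [c1, comm_aeval ρ p p']
    _ = aeval ρ p' * (aeval ρ p * Ring.inverse (aeval ρ q')) * Ring.inverse (aeval ρ q) := by
        simp only [mul_assoc]
    _ = aeval ρ p' * Ring.inverse (aeval ρ q') * (aeval ρ p * Ring.inverse (aeval ρ q)) := by
        rw [comm_inv ρ p q']
        simp only [mul_assoc]

omit [StarRing K] in
/-- coprime polynomials, one vanishing -/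
lemma unit_of_cop {ρ : A} {p q : K[X]} (h : IsCoprime p q) (hq : aeval ρ q = 0) :
    IsUnit (aeval ρ p) := by
  obtain ⟨a, b, hab⟩ := h
  have h1 := congrArg (aeval ρ) hab
  rw [map_add, map_mul, map_mul, hq, mul_zero, add_zero, map_one] at h1
  exact ⟨⟨aeval ρ p, aeval ρ a, by rw [comm_aeval, h1], h1⟩, rfl⟩

/-- the units at a matrix killed by the conjugate polynomial -/
theorem units_of {c : Fin (m + 1) → K} {ρ : A} (h0 : aeval ρ (H439.Pc (H439.sc c)) = 0)
    (h : uu x0 c ≠ vv x0 c) (hv : vv x0 c ≠ 0)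
    (hc : IsCoprime (H439.Pc c) (H439.Pc (H439.sc c))) :
    IsUnit (aeval ρ (H439.Pc (red x0 c))) ∧
      IsUnit (aeval ρ (H439.Pc fun _ : Fin 1 => -x0)) := by
  refine ⟨unit_of_cop (red_cop_right h hv hc) h0, ?_⟩
  rw [pc_lin]
  refine unit_of_cop ?_ h0
  rw [(irreducible_X_sub_C x0).coprime_iff_not_dvd, dvd_iff_isRoot]
  exact hv

end alg

/-! ### columns -/

section col

open H439 (Col Sq)

variable {D : Type*} [DivisionRing D] [StarRing D] [Algebra K D] [StarModule K D] {b : ℕ}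

/-- **the state form of the composite multiplier** -/
theorem kappa1_col {c : Fin (m + 1) → K} {r : Sq D b} (h0 : aeval r (H439.Pc c) = 0)
    (h : uu x0 c ≠ vv x0 c) (hv : vv x0 c ≠ 0)
    (hR : IsUnit (aeval rᴴ (H439.Pc (red x0 c))))
    (hL : IsUnit (aeval rᴴ (H439.Pc fun _ : Fin 1 => -x0))) (w : Col D b) :
    aeval rᴴ (H439.Pc (H439.sc (red x0 c))) * (Ring.inverse (aeval rᴴ (H439.Pc (red x0 c))) *
      (aeval rᴴ (H439.Pc (H439.sc fun _ : Fin 1 => -x0)) *
        (Ring.inverse (aeval rᴴ (H439.Pc fun _ : Fin 1 => -x0)) * w))) = kap x0 c • w := by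
  have h1 : aeval rᴴ (H439.Pc (H439.sc c)) = 0 := by
    rw [H439.aeval_conj, h0, conjTranspose_zero]
  have h2 := congrArg (fun t : Sq D b => t * w) (kappa1 h1 h hv hR hL)
  simp only [Matrix.smul_mul, Matrix.one_mul] at h2
  rw [← h2]
  simp only [Matrix.mul_assoc]

/-- the other order -/
theorem kappa1_col' {c : Fin (m + 1) → K} {r : Sq D b} (h0 : aeval r (H439.Pc c) = 0)
    (h : uu x0 c ≠ vv x0 c) (hv : vv x0 c ≠ 0)
    (hR : IsUnit (aeval rᴴ (H439.Pc (red x0 c))))
    (hL : IsUnit (aeval rᴴ (H439.Pc fun _ : Fin 1 => -x0))) (w : Col D b) :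
    aeval rᴴ (H439.Pc (H439.sc fun _ : Fin 1 => -x0)) *
      (Ring.inverse (aeval rᴴ (H439.Pc fun _ : Fin 1 => -x0)) *
        (aeval rᴴ (H439.Pc (H439.sc (red x0 c))) *
          (Ring.inverse (aeval rᴴ (H439.Pc (red x0 c))) * w))) = kap x0 c • w := by
  have h1 : aeval rᴴ (H439.Pc (H439.sc c)) = 0 := by
    rw [H439.aeval_conj, h0, conjTranspose_zero]
  have h2 := congrArg (fun t : Sq D b => t * w) (kappa1' h1 h hv hR hL)
  simp only [Matrix.smul_mul, Matrix.one_mul] at h2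
  rw [← h2]
  simp only [Matrix.mul_assoc]

/-- the units at a state -/
theorem units_col {c : Fin (m + 1) → K} {r : Sq D b} (h0 : aeval r (H439.Pc c) = 0)
    (h : uu x0 c ≠ vv x0 c) (hv : vv x0 c ≠ 0)
    (hc : IsCoprime (H439.Pc c) (H439.Pc (H439.sc c))) :
    IsUnit (aeval rᴴ (H439.Pc (red x0 c))) ∧
      IsUnit (aeval rᴴ (H439.Pc fun _ : Fin 1 => -x0)) := by
  refine units_of ?_ h hv hc
  rw [H439.aeval_conj, h0, conjTranspose_zero]

end col

/-! ### near a point -/

section top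

variable [TopologicalSpace K] [IsTopologicalRing K] [ContinuousStar K]

lemma cont_kap [ContinuousInv₀ K] {c0 : Fin m → K} (h : uu x0 c0 ≠ vv x0 c0)
    (hv : vv x0 c0 ≠ 0) : ContinuousAt (kap x0) c0 := by
  have hu' := (cont_uu m x0).continuousAt (x := c0)
  have hv' := (cont_vv m x0).continuousAt (x := c0)
  have hs : ContinuousAt (fun c : Fin m → K => star (uu x0 c)) c0 :=
    continuous_star.continuousAt.comp hu'
  have hs' : ContinuousAt (fun c : Fin m → K => star (uu x0 c - vv x0 c)) c0 :=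
    continuous_star.continuousAt.comp (hu'.sub hv')
  refine ((hs.div hv' hv).neg.mul (hu'.sub hv')).div hs' ?_
  rw [Ne, star_eq_zero]
  exact sub_ne_zero.2 h

variable [T1Space K]

lemma ev_ne {α : Type*} [TopologicalSpace α] {f g : α → K} {a : α} (hf : ContinuousAt f a)
    (hg : ContinuousAt g a) (h : f a ≠ g a) : ∀ᶠ t in 𝓝 a, f t ≠ g t := by
  have h1 : ContinuousAt (fun t => f t - g t) a := hf.sub hg
  have h2 := h1.eventually_ne (y := 0) (sub_ne_zero.2 h)
  exact h2.mono fun t ht => sub_ne_zero.1 ht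

/-- the conditions on the point are open -/
theorem ev_pt {c0 : Fin m → K} (h : uu x0 c0 ≠ vv x0 c0) (hu : uu x0 c0 ≠ 0)
    (hv : vv x0 c0 ≠ 0)
    (hd : uu x0 c0 * star (uu x0 c0) ≠ vv x0 c0 * star (vv x0 c0)) :
    ∀ᶠ c in 𝓝 c0, uu x0 c ≠ vv x0 c ∧ uu x0 c ≠ 0 ∧ vv x0 c ≠ 0 ∧
      uu x0 c * star (uu x0 c) ≠ vv x0 c * star (vv x0 c) := by
  have hu' := (cont_uu m x0).continuousAt (x := c0)
  have hv' := (cont_vv m x0).continuousAt (x := c0)
  have hs : ContinuousAt (fun c : Fin m → K => star (uu x0 c)) c0 :=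
    continuous_star.continuousAt.comp hu'
  have hs' : ContinuousAt (fun c : Fin m → K => star (vv x0 c)) c0 :=
    continuous_star.continuousAt.comp hv'
  filter_upwards [ev_ne hu' hv' h, ev_ne hu' continuousAt_const hu,
    ev_ne hv' continuousAt_const hv, ev_ne (hu'.mul hs) (hv'.mul hs') hd] with c h1 h2 h3 h4
  exact ⟨h1, h2, h3, h4⟩

omit [StarRing K] [IsTopologicalRing K] [ContinuousStar K] [T1Space K] in
lemma cont_syl {α : Type*} [TopologicalSpace α] {n n' : ℕ} {f : α → Fin n → K}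
    {g : α → Fin n' → K} {a : α} (hf : ContinuousAt f a) (hg : ContinuousAt g a) :
    ContinuousAt (fun t => sylvester (Pc (f t)) (Pc (g t)) n n') a := by
  refine continuousAt_pi.2 fun i => continuousAt_pi.2 fun j => ?_
  induction j using Fin.addCases with
  | left j =>
    simp only [sylvester, of_apply, Fin.addCases_left]
    by_cases h : (i : ℕ) ∈ Set.Icc (j : ℕ) (j + n')
    · simp only [if_pos h]
      exact cont_coeff hg _
    · simp only [if_neg h]
      exact continuousAt_const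
  | right j =>
    simp only [sylvester, of_apply, Fin.addCases_right]
    by_cases h : (i : ℕ) ∈ Set.Icc (j : ℕ) (j + n)
    · simp only [if_pos h]
      exact cont_coeff hf _
    · simp only [if_neg h]
      exact continuousAt_const

omit [StarRing K] [ContinuousStar K] in
/-- coprimality of two monic polynomials is an open condition -/
theorem ev_cop {α : Type*} [TopologicalSpace α] {n n' : ℕ} {f : α → Fin n → K}
    {g : α → Fin n' → K} {a : α} (hf : ContinuousAt f a) (hg : ContinuousAt g a)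
    (h : IsCoprime (Pc (f a)) (Pc (g a))) : ∀ᶠ t in 𝓝 a, IsCoprime (Pc (f t)) (Pc (g t)) := by
  have h0 : ∀ t, IsCoprime (Pc (f t)) (Pc (g t)) ↔
      (sylvester (Pc (f t)) (Pc (g t)) n n').det ≠ 0 := by
    intro t
    rw [← isUnit_resultant_iff_isCoprime (Pc_monic _), isUnit_iff_ne_zero, resultant,
      Pc_natDegree, Pc_natDegree]
  have h1 : ContinuousAt (fun t => (sylvester (Pc (f t)) (Pc (g t)) n n').det) a :=
    (Continuous.matrix_det continuous_id).continuousAt.comp (cont_syl hf hg)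
  have h2 := h1.eventually_ne ((h0 a).1 h)
  exact h2.mono fun t ht => (h0 t).2 ht

/-- a polynomial coprime to its conjugate, nearby -/
theorem ev_cop_sc {c0 : Fin m → K} (h : IsCoprime (H439.Pc c0) (H439.Pc (H439.sc c0))) :
    ∀ᶠ c in 𝓝 c0, IsCoprime (H439.Pc c) (H439.Pc (H439.sc c)) :=
  ev_cop (f := fun c => c) (g := fun c => sc c) continuousAt_id
    (cont_sc m).continuousAt h

variable {D : Type*} [DivisionRing D] [StarRing D] [Algebra K D] [StarModule K D] {b : ℕ}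
  [TopologicalSpace D] [IsTopologicalRing D]

open H439 (Col Sq)

/-- continuity of the evaluation -/
theorem cont_aeval (hcont : Continuous (algebraMap K D)) {α : Type*} [TopologicalSpace α]
    {n : ℕ} {f : α → Fin n → K} {g : α → Sq D b} {a : α} (hf : ContinuousAt f a)
    (hg : ContinuousAt g a) : ContinuousAt (fun t => aeval (g t) (H439.Pc (f t))) a := by
  have : ContinuousSMul K D := continuousSMul_of_algebraMap K D hcont
  simp only [H439.aeval_Pc]
  refine (hg.pow n).add ?_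
  refine tendsto_finsetSum _ fun i _ => ?_
  exact ((continuousAt_pi.1 hf) i).smul (hg.pow _)

/-- **the units near a state** -/
theorem units_near [ContinuousStar D] [T1Space D] [ContinuousInv₀ D] [ContinuousInv₀ K]
    (hcont : Continuous (algebraMap K D)) {c0 : Fin (m + 1) → K} {r0 : Sq D b}
    (h0 : aeval r0 (H439.Pc c0) = 0) (h : uu x0 c0 ≠ vv x0 c0) (hv : vv x0 c0 ≠ 0)
    (hc : IsCoprime (H439.Pc c0) (H439.Pc (H439.sc c0))) :
    ∀ᶠ x : (Fin (m + 1) → K) × Sq D b in 𝓝 (c0, r0),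
      IsUnit (aeval x.2ᴴ (H439.Pc (red x0 x.1))) ∧
      IsUnit (aeval x.2ᴴ (H439.Pc fun _ : Fin 1 => -x0)) := by
  have hr : ContinuousAt (fun x : (Fin (m + 1) → K) × Sq D b => x.2ᴴ) (c0, r0) :=
    (continuous_snd.matrix_conjTranspose).continuousAt
  have hred : Tendsto (red x0) (𝓝 c0) (𝓝 (red x0 c0)) := cont_red h
  have hfst : Tendsto (fun x : (Fin (m + 1) → K) × Sq D b => x.1) (𝓝 (c0, r0)) (𝓝 c0) :=
    continuous_fst.tendsto (c0, r0)
  have hf : ContinuousAt (fun x : (Fin (m + 1) → K) × Sq D b => red x0 x.1) (c0, r0) :=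
    hred.comp hfst
  obtain ⟨u1, u2⟩ := units_col (x0 := x0) h0 h hv hc
  have e1 : Tendsto (fun x : (Fin (m + 1) → K) × Sq D b => aeval x.2ᴴ (H439.Pc (red x0 x.1)))
      (𝓝 (c0, r0)) (𝓝 (aeval r0ᴴ (H439.Pc (red x0 c0)))) := (cont_aeval hcont hf hr).tendsto
  have hk : ContinuousAt (fun _ : (Fin (m + 1) → K) × Sq D b => fun _ : Fin 1 => -x0)
      (c0, r0) := continuousAt_const
  have e2 : Tendsto (fun x : (Fin (m + 1) → K) × Sq D b =>
      aeval x.2ᴴ (H439.Pc fun _ : Fin 1 => -x0))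
      (𝓝 (c0, r0)) (𝓝 (aeval r0ᴴ (H439.Pc fun _ : Fin 1 => -x0))) :=
    (cont_aeval hcont hk hr).tendsto
  have f1 := e1.eventually (H341.Odd.eventually_isUnit u1)
  have f2 := e2.eventually (H341.Odd.eventually_isUnit u2)
  exact f1.and f2

end top

end

end Vale.Agent.P011.H415
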